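import Mathlib
import Vale.Agent.Helper23.P158.Main2

namespace Vale.Agent.Results.P158.AllLines

open Vale.Agent.Helper23.P158 MeasureTheory
open scoped NNReal

/-- First-passage percolation on the square lattice with i.i.d. edge weights of law `G`, where
`G` is any Borel probability law on the nonnegative reals that is not a point mass (so every
atomless law is allowed). Almost surely, simultaneously for all straight lines of the plane:
no geodesic ray, and neither end of any bigeodesic, stays within bounded distance of the line.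
Formally every nonzero real linear form `α x + β y` of the coordinates is unbounded in absolute
value along every geodesic ray and along each of the two ends of every bigeodesic. -/
theorem result (G : Measure ℝ≥0) [IsProbabilityMeasure G] (hG : ∀ x, G {x} ≠ 1) :
    ∀ᵐ t ∂(Measure.infinitePi (fun _ : Sym2 (ℤ × ℤ) => G)),
      (∀ v : ℕ → ℤ × ℤ, IsRay t v → ∀ α β : ℝ, (α ≠ 0 ∨ β ≠ 0) → ∀ w : ℝ,
        ∃ i, w < |α * ((v i).1 : ℝ) + β * ((v i).2 : ℝ)|) ∧
      (∀ v : ℤ → ℤ × ℤ, IsBigeodesic t v → ∀ α β : ℝ, (α ≠ 0 ∨ β ≠ 0) → ∀ (w : ℝ) (N : ℤ),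
        (∃ i, N ≤ i ∧ w < |α * ((v i).1 : ℝ) + β * ((v i).2 : ℝ)|) ∧
        (∃ i, i ≤ N ∧ w < |α * ((v i).1 : ℝ) + β * ((v i).2 : ℝ)|)) :=
  lines_main G hG

end Vale.Agent.Results.P158.AllLines
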