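import Mathlib
import Vale.Agent.Helper23.P158.Plain

namespace Vale.Agent.Results.P158.BigeodesicLinesPlain

open Vale.Agent.Helper23.P158 MeasureTheory
open scoped NNReal

/-- First-passage percolation on the square lattice with i.i.d. edge weights of law `G`, where
`G` is any Borel probability law on the nonnegative reals that is not a point mass (so every
atomless law is allowed). Almost surely, simultaneously for all bigeodesics and all straight
lines of the plane: neither end of the bigeodesic stays within bounded distance of the line.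

The statement uses no definitions beyond Mathlib. `adj` is nearest-neighbour adjacency in the
square lattice, and `T t x y` is the passage time: the infimum, over all finite
nearest-neighbour paths from `x` to `y` (lists of vertices with consecutive entries adjacent,
first entry `x` and last entry `y`), of the sum of the weights `t` of the consecutive pairs of
the list. A bigeodesic is an injective `v : ℤ → ℤ × ℤ` with consecutive vertices adjacent such
that for all `i < j` the weights of the edges `v k, v (k + 1)`, `i ≤ k < j`, sum to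
`T t (v i) (v j)`. -/
theorem result (G : Measure ℝ≥0) [IsProbabilityMeasure G] (hG : ∀ x, G {x} ≠ 1) :
    let adj : ℤ × ℤ → ℤ × ℤ → Prop := fun u v => |u.1 - v.1| + |u.2 - v.2| = 1
    let T : (Sym2 (ℤ × ℤ) → ℝ≥0) → ℤ × ℤ → ℤ × ℤ → ℝ≥0 := fun t x y =>
      ⨅ p : {l : List (ℤ × ℤ) // l.IsChain adj ∧ l.head? = some x ∧ l.getLast? = some y},
        (List.zipWith (fun a b => t s(a, b)) p.1 p.1.tail).sum
    ∀ᵐ t ∂(Measure.infinitePi (fun _ : Sym2 (ℤ × ℤ) => G)),
      ∀ v : ℤ → ℤ × ℤ, Function.Injective v → (∀ i, adj (v i) (v (i + 1))) →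
        (∀ i j, i < j → ∑ k ∈ Finset.Ico i j, t s(v k, v (k + 1)) = T t (v i) (v j)) →
        ∀ α β : ℝ, (α ≠ 0 ∨ β ≠ 0) → ∀ (w : ℝ) (N : ℤ),
          (∃ i, N ≤ i ∧ w < |α * ((v i).1 : ℝ) + β * ((v i).2 : ℝ)|) ∧
          (∃ i, i ≤ N ∧ w < |α * ((v i).1 : ℝ) + β * ((v i).2 : ℝ)|) := by
  intro adj T
  filter_upwards [lines_main G hG] with t ht
  intro v hinj hadj hgeo
  have hv : IsBigeodesic t v := by
    refine ⟨hinj, hadj, ?_⟩
    intro i j hij
    rw [hgeo i j hij]
    exact passage_eq_iInf_zipWith t (v i) (v j)
  exact ht.2 v hv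

end Vale.Agent.Results.P158.BigeodesicLinesPlain
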