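import Mathlib
import Vale.Agent.Helper23.P158.Main

namespace Vale.Agent.Results.P158.StripRays

open Vale.Agent.Helper23.P158 MeasureTheory
open scoped NNReal

/-- First-passage percolation on the square lattice with i.i.d. edge weights of law `G`, where
`G` is any Borel probability law on the nonnegative reals that is not a point mass (so every
atomless law is allowed). Almost surely, along every geodesic ray both coordinates are
unbounded, and along each of the two ends of every bigeodesic both coordinates are unbounded: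
no geodesic ray and no end of a bigeodesic stays in a horizontal or vertical strip of finite
width. -/
theorem result (G : Measure ℝ≥0) [IsProbabilityMeasure G] (hG : ∀ x, G {x} ≠ 1) :
    ∀ᵐ t ∂(Measure.infinitePi (fun _ : Sym2 (ℤ × ℤ) => G)),
      (∀ v : ℕ → ℤ × ℤ, IsRay t v → ∀ w : ℕ,
        (∃ i, (w : ℤ) < |(v i).1|) ∧ (∃ i, (w : ℤ) < |(v i).2|)) ∧
      (∀ v : ℤ → ℤ × ℤ, IsBigeodesic t v → ∀ (w : ℕ) (N : ℤ),
        (∃ i, N ≤ i ∧ (w : ℤ) < |(v i).1|) ∧ (∃ i, N ≤ i ∧ (w : ℤ) < |(v i).2|) ∧
        (∃ i, i ≤ N ∧ (w : ℤ) < |(v i).1|) ∧ (∃ i, i ≤ N ∧ (w : ℤ) < |(v i).2|)) :=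
  strip_main G hG

end Vale.Agent.Results.P158.StripRays
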